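import Vale.Agent.Lib.P322.Fourier

open Finset BigOperators

namespace Vale.Agent.Lib.P322

lemma chi_singleton {n : ℕ} (i : Fin n) (x : Fin n → Bool) : chi {i} x = sg (x i) := by
  simp [chi]

lemma chi_pair {n : ℕ} {i j : Fin n} (hij : i ≠ j) (x : Fin n → Bool) :
    chi {i, j} x = sg (x i) * sg (x j) := by
  unfold chi
  rw [Finset.prod_pair hij]

lemma avg_sg {n : ℕ} (i : Fin n) : avg (fun x : Fin n → Bool => sg (x i)) = 0 := by
  have h := avg_chi (S := {i}) (Finset.singleton_ne_empty i)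
  have e : chi {i} = fun x : Fin n → Bool => sg (x i) := funext (chi_singleton i)
  rwa [e] at h

lemma ind_false_eq {n : ℕ} (f : (Fin n → Bool) → Bool) (x : Fin n → Bool) :
    ind f false x = 1 - ind f true x := by
  have := ind_add f x
  linarith

lemma Fhat_singleton {n : ℕ} (f : (Fin n → Bool) → Bool) (i : Fin n) :
    Fhat f {i} = avg (fun x => ind f true x * sg (x i)) := by
  unfold Fhat
  have : (fun x => ind f true x * chi {i} x) = fun x => ind f true x * sg (x i) := by
    funext x; rw [chi_singleton]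
  rw [this]

lemma jointCoord_eq {n : ℕ} (f : (Fin n → Bool) → Bool) (ε : ℝ) (i : Fin n) (b u : Bool) :
    jointCoord f ε i b u = avg (fun x => ind f b x * bsc ε (x i) u) := by
  unfold jointCoord avg ind
  rw [sum_div]
  refine sum_congr rfl fun x _ => ?_
  split_ifs
  · ring
  · ring

lemma jointCoord_true {n : ℕ} (f : (Fin n → Bool) → Bool) (ε : ℝ) (i : Fin n) (u : Bool) :
    jointCoord f ε i true u = (pOne f + (1 - 2 * ε) * sg u * Fhat f {i}) / 2 := by
  rw [jointCoord_eq, Fhat_singleton, ← avg_ind_true]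
  have : (fun x => ind f true x * bsc ε (x i) u)
      = fun x => (1 / 2) * ind f true x
        + ((1 - 2 * ε) * sg u / 2) * (ind f true x * sg (x i)) := by
    funext x
    rw [bsc_eq]; ring
  rw [this, avg_add, avg_const_mul, avg_const_mul]
  have e : avg (fun x => ind f true x) = avg (ind f true) := rfl
  rw [e]
  ring

lemma avg_bsc {n : ℕ} (ε : ℝ) (i : Fin n) (u : Bool) :
    avg (fun x : Fin n → Bool => bsc ε (x i) u) = 1 / 2 := by
  have : (fun x : Fin n → Bool => bsc ε (x i) u)
      = fun x => (1 / 2 : ℝ) + ((1 - 2 * ε) * sg u / 2) * sg (x i) := by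
    funext x
    rw [bsc_eq]; ring
  rw [this, avg_add, avg_const_mul, avg_sg]
  unfold avg
  simp

lemma jointCoord_false {n : ℕ} (f : (Fin n → Bool) → Bool) (ε : ℝ) (i : Fin n) (u : Bool) :
    jointCoord f ε i false u = ((1 - pOne f) - (1 - 2 * ε) * sg u * Fhat f {i}) / 2 := by
  have h1 : jointCoord f ε i false u
      = avg (fun x : Fin n → Bool => bsc ε (x i) u) - jointCoord f ε i true u := by
    rw [jointCoord_eq, jointCoord_eq]
    unfold avg
    rw [← sub_div, ← sum_sub_distrib]
    congr 1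
    refine sum_congr rfl fun x _ => ?_
    show ind f false x * bsc ε (x i) u = bsc ε (x i) u - ind f true x * bsc ε (x i) u
    rw [ind_false_eq]; ring
  rw [h1, avg_bsc, jointCoord_true]
  ring

/-- Value of one pair of lines in the information sum. -/
lemma term_pair {P t : ℝ} (hP : 0 ≤ P) (ht : P = 0 → t = 0) :
    (P + t) / 2 * Real.log ((P + t) / 2 / (P * (1 / 2)))
      + (P - t) / 2 * Real.log ((P - t) / 2 / (P * (1 / 2)))
      = (P / 2) * phi (t / P) := by
  rcases hP.eq_or_lt with h | h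
  · have h0 := ht h.symm
    rw [← h, h0]; simp
  · have e1 : (P + t) / 2 / (P * (1 / 2)) = 1 + t / P := by field_simp
    have e2 : (P - t) / 2 / (P * (1 / 2)) = 1 - t / P := by field_simp
    rw [e1, e2]
    unfold phi
    have e3 : (P + t) / 2 = (P / 2) * (1 + t / P) := by field_simp
    have e4 : (P - t) / 2 = (P / 2) * (1 - t / P) := by field_simp
    rw [e3, e4]
    ring

lemma phi_mul_le {g ρ : ℝ} (hg : |g| ≤ 1) (h0 : 0 ≤ ρ) (h1 : ρ ≤ 1) :
    phi (ρ * g) ≤ g ^ 2 * phi ρ := by
  have hρ : |ρ| ≤ 1 := by rw [abs_of_nonneg h0]; exact h1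
  have hg' := abs_le.mp hg
  rcases le_total 0 g with hp | hn
  · have := phi_scale hp hg'.2 hρ
    rwa [mul_comm g ρ] at this
  · have := phi_scale (c := -g) (by linarith) (by linarith) hρ
    have e : -g * ρ = -(ρ * g) := by ring
    rw [e, phi_neg] at this
    have e2 : (-g) ^ 2 = g ^ 2 := by ring
    rwa [e2] at this

lemma abs_Fhat_le_p {n : ℕ} (f : (Fin n → Bool) → Bool) (i : Fin n) :
    |Fhat f {i}| ≤ pOne f := by
  rw [Fhat_singleton, ← avg_ind_true, abs_le]
  unfold avg
  constructor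
  · rw [neg_le_iff_add_nonneg', ← add_div, ← sum_add_distrib]
    refine div_nonneg (sum_nonneg fun x _ => ?_) (by positivity)
    have := ind_nonneg f true x
    have h := sg_abs (x i)
    have h2 := neg_abs_le (sg (x i))
    rw [h] at h2
    nlinarith
  · refine div_le_div_of_nonneg_right (sum_le_sum fun x _ => ?_) (by positivity)
    have := ind_nonneg f true x
    have h := sg_abs (x i)
    have h2 := le_abs_self (sg (x i))
    rw [h] at h2
    nlinarith

lemma Fhat_singleton_false {n : ℕ} (f : (Fin n → Bool) → Bool) (i : Fin n) :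
    Fhat f {i} = - avg (fun x => ind f false x * sg (x i)) := by
  rw [Fhat_singleton]
  have h := avg_sg (n := n) i
  have e : (fun x => ind f false x * sg (x i))
      = fun x => sg (x i) + (-1) * (ind f true x * sg (x i)) := by
    funext x; rw [ind_false_eq]; ring
  rw [e, avg_add, avg_const_mul, h]
  ring

lemma abs_Fhat_le_q {n : ℕ} (f : (Fin n → Bool) → Bool) (i : Fin n) :
    |Fhat f {i}| ≤ 1 - pOne f := by
  rw [Fhat_singleton_false, abs_neg, ← avg_ind_false, abs_le]
  unfold avg
  constructor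
  · rw [neg_le_iff_add_nonneg', ← add_div, ← sum_add_distrib]
    refine div_nonneg (sum_nonneg fun x _ => ?_) (by positivity)
    have := ind_nonneg f false x
    have h := sg_abs (x i)
    have h2 := neg_abs_le (sg (x i))
    rw [h] at h2
    nlinarith
  · refine div_le_div_of_nonneg_right (sum_le_sum fun x _ => ?_) (by positivity)
    have := ind_nonneg f false x
    have h := sg_abs (x i)
    have h2 := le_abs_self (sg (x i))
    rw [h] at h2
    nlinarith

/-- Closed form of the coordinate information. -/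
lemma mi_coord_eq {n : ℕ} (f : (Fin n → Bool) → Bool) {ε : ℝ} (i : Fin n) :
    mutualInfo (jointCoord f ε i) * Real.log 2
      = (pOne f / 2) * phi ((1 - 2 * ε) * Fhat f {i} / pOne f)
        + ((1 - pOne f) / 2) * phi ((1 - 2 * ε) * Fhat f {i} / (1 - pOne f)) := by
  have hlog2 : Real.log 2 ≠ 0 := (Real.log_pos (by norm_num)).ne'
  set p := pOne f with hp
  set d := Fhat f {i} with hd
  set ρ := 1 - 2 * ε with hρ
  have hdp : |d| ≤ p := abs_Fhat_le_p f i
  have hdq : |d| ≤ 1 - p := abs_Fhat_le_q f i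
  have hp0 : 0 ≤ p := le_trans (abs_nonneg _) hdp
  have hq0 : 0 ≤ 1 - p := le_trans (abs_nonneg _) hdq
  have jt : ∀ u, jointCoord f ε i true u = (p + ρ * sg u * d) / 2 := fun u =>
    jointCoord_true f ε i u
  have jf : ∀ u, jointCoord f ε i false u = ((1 - p) - ρ * sg u * d) / 2 := fun u =>
    jointCoord_false f ε i u
  have st : sg true = 1 := by simp [sg]
  have sf : sg false = -1 := by simp [sg]
  have mt : ∑ u, jointCoord f ε i true u = p := by
    rw [Fintype.sum_bool, jt, jt, st, sf]; ring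
  have mf : ∑ u, jointCoord f ε i false u = 1 - p := by
    rw [Fintype.sum_bool, jf, jf, st, sf]; ring
  have mu : ∀ u, ∑ b, jointCoord f ε i b u = 1 / 2 := by
    intro u
    rw [Fintype.sum_bool, jt, jf]; ring
  have h1 := term_pair (P := p) (t := ρ * d) hp0 (by
    intro h; rw [h, abs_nonpos_iff] at hdp; rw [hdp, mul_zero])
  have h2 := term_pair (P := 1 - p) (t := ρ * d) hq0 (by
    intro h; rw [h, abs_nonpos_iff] at hdq; rw [hdq, mul_zero])
  unfold mutualInfo Real.logb
  rw [Fintype.sum_bool]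
  simp only [mt, mf, mu]
  simp only [Fintype.sum_bool, jt, jf, st, sf]
  have e1 : (p + ρ * 1 * d) / 2 = (p + ρ * d) / 2 := by ring
  have e2 : (p + ρ * -1 * d) / 2 = (p - ρ * d) / 2 := by ring
  have e3 : (1 - p - ρ * 1 * d) / 2 = (1 - p - ρ * d) / 2 := by ring
  have e4 : (1 - p - ρ * -1 * d) / 2 = (1 - p + ρ * d) / 2 := by ring
  rw [e1, e2, e3, e4]
  have h2' : (1 - p + ρ * d) / 2 * Real.log ((1 - p + ρ * d) / 2 / ((1 - p) * (1 / 2)))
      + (1 - p - ρ * d) / 2 * Real.log ((1 - p - ρ * d) / 2 / ((1 - p) * (1 / 2)))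
      = (1 - p) / 2 * phi (ρ * d / (1 - p)) := h2
  rw [← h1, ← h2']
  generalize Real.log ((p + ρ * d) / 2 / (p * (1 / 2))) = L1
  generalize Real.log ((p - ρ * d) / 2 / (p * (1 / 2))) = L2
  generalize Real.log ((1 - p + ρ * d) / 2 / ((1 - p) * (1 / 2))) = L3
  generalize Real.log ((1 - p - ρ * d) / 2 / ((1 - p) * (1 / 2))) = L4
  field_simp
  ring

/-- The coordinatewise inequality for every Boolean function. -/
theorem coord_sum_le {n : ℕ} (f : (Fin n → Bool) → Bool) {ε : ℝ} (h0 : 0 ≤ ε) (h1 : ε ≤ 1 / 2) :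
    ∑ i, mutualInfo (jointCoord f ε i) ≤ 1 - h2 ε := by
  have hlog2 : 0 < Real.log 2 := Real.log_pos (by norm_num)
  rw [one_sub_h2 h0 h1]
  set ρ := 1 - 2 * ε with hρ
  set p := pOne f with hp
  have hρ0 : 0 ≤ ρ := by rw [hρ]; linarith
  have hρ1 : ρ ≤ 1 := by rw [hρ]; linarith
  have hρa : |ρ| ≤ 1 := by rw [abs_of_nonneg hρ0]; exact hρ1
  have hφ : 0 ≤ phi ρ := phi_nonneg hρa
  -- pointwise bound
  have hline : ∀ i : Fin n, mutualInfo (jointCoord f ε i) * Real.log 2 * (p * (1 - p))
      ≤ (Fhat f {i}) ^ 2 * phi ρ / 2 := by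
    intro i
    rw [mi_coord_eq]
    have hdp : |Fhat f {i}| ≤ p := abs_Fhat_le_p f i
    have hdq : |Fhat f {i}| ≤ 1 - p := abs_Fhat_le_q f i
    set d := Fhat f {i} with hd
    have hp0 : 0 ≤ p := le_trans (abs_nonneg _) hdp
    have hq0 : 0 ≤ 1 - p := le_trans (abs_nonneg _) hdq
    rcases hp0.eq_or_lt with hp1 | hp1
    · rw [← hp1]
      have : d = 0 := by
        rw [← hp1, abs_nonpos_iff] at hdp; exact hdp
      rw [this]; simp [phi_zero]
    rcases hq0.eq_or_lt with hq1 | hq1
    · have e : 1 - p = 0 := hq1.symm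
      have : d = 0 := by
        rw [e, abs_nonpos_iff] at hdq; exact hdq
      rw [e, this]; simp [phi_zero]
    have g1 : |d / p| ≤ 1 := by
      rw [abs_div, abs_of_pos hp1, div_le_one hp1]; exact hdp
    have g2 : |d / (1 - p)| ≤ 1 := by
      rw [abs_div, abs_of_pos hq1, div_le_one hq1]; exact hdq
    have b1 := phi_mul_le g1 hρ0 hρ1
    have b2 := phi_mul_le g2 hρ0 hρ1
    have e1 : ρ * d / p = ρ * (d / p) := by ring
    have e2 : ρ * d / (1 - p) = ρ * (d / (1 - p)) := by ring
    rw [e1, e2]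
    have c1 : (p / 2) * phi (ρ * (d / p)) * (p * (1 - p)) ≤ (p / 2) * ((d / p) ^ 2 * phi ρ) * (p * (1 - p)) := by
      apply mul_le_mul_of_nonneg_right _ (by positivity)
      exact mul_le_mul_of_nonneg_left b1 (by positivity)
    have c2 : ((1 - p) / 2) * phi (ρ * (d / (1 - p))) * (p * (1 - p))
        ≤ ((1 - p) / 2) * ((d / (1 - p)) ^ 2 * phi ρ) * (p * (1 - p)) := by
      apply mul_le_mul_of_nonneg_right _ (by positivity)
      exact mul_le_mul_of_nonneg_left b2 (by positivity)
    have e3 : (p / 2) * ((d / p) ^ 2 * phi ρ) * (p * (1 - p)) = d ^ 2 * phi ρ / 2 * (1 - p) := by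
      field_simp
    have e4 : ((1 - p) / 2) * ((d / (1 - p)) ^ 2 * phi ρ) * (p * (1 - p)) = d ^ 2 * phi ρ / 2 * p := by
      field_simp
    rw [e3] at c1
    rw [e4] at c2
    have : ((p / 2) * phi (ρ * (d / p)) + ((1 - p) / 2) * phi (ρ * (d / (1 - p)))) * (p * (1 - p))
        = (p / 2) * phi (ρ * (d / p)) * (p * (1 - p))
          + ((1 - p) / 2) * phi (ρ * (d / (1 - p))) * (p * (1 - p)) := by ring
    rw [this]
    nlinarith
  have hbes := bessel f (ι := Fin n) (fun i => ({i} : Finset (Fin n)))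
    (fun i j h => Finset.singleton_injective h) (fun i => Finset.singleton_ne_empty i)
  -- zero-information case versus main case
  have hpq : 0 ≤ p * (1 - p) := le_trans (Finset.sum_nonneg fun i _ => sq_nonneg _) hbes
  have hmi0 : ∀ i, p * (1 - p) = 0 → mutualInfo (jointCoord f ε i) = 0 := by
    intro i hz
    have hi := mi_coord_eq f (ε := ε) i
    have hdp : |Fhat f {i}| ≤ p := abs_Fhat_le_p f i
    have hdq : |Fhat f {i}| ≤ 1 - p := abs_Fhat_le_q f i
    rcases mul_eq_zero.mp hz with hz1 | hz1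
    · have hd0 : Fhat f {i} = 0 := by
        rw [hz1, abs_nonpos_iff] at hdp; exact hdp
      have h5 : mutualInfo (jointCoord f ε i) * Real.log 2 = 0 := by
        rw [hi, ← hp, hd0, hz1]; simp [phi_zero]
      exact (mul_eq_zero.mp h5).resolve_right hlog2.ne'
    · have hd0 : Fhat f {i} = 0 := by
        rw [hz1, abs_nonpos_iff] at hdq; exact hdq
      have h5 : mutualInfo (jointCoord f ε i) * Real.log 2 = 0 := by
        rw [hi, ← hp, hd0, hz1]; simp [phi_zero]
      exact (mul_eq_zero.mp h5).resolve_right hlog2.ne'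
  rcases hpq.eq_or_lt with hz | hpos
  · rw [Finset.sum_eq_zero (fun i _ => hmi0 i hz.symm)]
    positivity
  · have hsum : (∑ i, mutualInfo (jointCoord f ε i)) * Real.log 2 * (p * (1 - p))
        ≤ (∑ i, (Fhat f {i}) ^ 2) * phi ρ / 2 := by
      rw [sum_mul, sum_mul, sum_mul, sum_div]
      exact sum_le_sum fun i _ => hline i
    have hb : (∑ i, (Fhat f {i}) ^ 2) * phi ρ / 2 ≤ (p * (1 - p)) * phi ρ / 2 := by
      have := mul_le_mul_of_nonneg_right hbes hφ
      linarith
    have h3 : (∑ i, mutualInfo (jointCoord f ε i)) * Real.log 2 ≤ phi ρ / 2 := by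
      have : (∑ i, mutualInfo (jointCoord f ε i)) * Real.log 2 * (p * (1 - p))
          ≤ (phi ρ / 2) * (p * (1 - p)) := by
        calc _ ≤ _ := hsum
          _ ≤ _ := hb
          _ = _ := by ring
      exact le_of_mul_le_mul_right this hpos
    rw [le_div_iff₀ (by positivity)]
    nlinarith

end Vale.Agent.Lib.P322
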