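import Mathlib

open Finset BigOperators

namespace Vale.Agent.Lib.P322

/-- Binary entropy in bits (with `0 log 0 = 0`, as `Real.logb 2 0 = 0`). -/
noncomputable def h2 (p : ℝ) : ℝ :=
  -(p * Real.logb 2 p) - (1 - p) * Real.logb 2 (1 - p)

/-- Transition probability of the binary symmetric channel with crossover `ε`. -/
noncomputable def bsc (ε : ℝ) (a b : Bool) : ℝ := if a = b then 1 - ε else ε

/-- Mutual information in bits of a finite joint probability table `J`. -/
noncomputable def mutualInfo {α β : Type} [Fintype α] [Fintype β] (J : α → β → ℝ) : ℝ :=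
  ∑ a, ∑ b, J a b * Real.logb 2 (J a b / ((∑ b', J a b') * (∑ a', J a' b)))

/-- `Pr[f(X) = true]` for `X` uniform on the cube. -/
noncomputable def pOne {n : ℕ} (f : (Fin n → Bool) → Bool) : ℝ :=
  ((univ.filter fun x => f x = true).card : ℝ) / 2 ^ n

/-- Joint law of `(f(X), Y)`, where `Y` is `X` through `n` independent channels. -/
noncomputable def jointFull {n : ℕ} (f : (Fin n → Bool) → Bool) (ε : ℝ)
    (b : Bool) (y : Fin n → Bool) : ℝ :=
  ∑ x, if f x = b then (1 / 2 ^ n) * ∏ i, bsc ε (x i) (y i) else 0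

/-- Joint law of `(f(X), Y_i)`. -/
noncomputable def jointCoord {n : ℕ} (f : (Fin n → Bool) → Bool) (ε : ℝ) (i : Fin n)
    (b : Bool) (u : Bool) : ℝ :=
  ∑ x, if f x = b then (1 / 2 ^ n) * bsc ε (x i) u else 0

/-- Joint law of `(f(X), (Y_i, Y_j))`. -/
noncomputable def jointPair {n : ℕ} (f : (Fin n → Bool) → Bool) (ε : ℝ) (i j : Fin n)
    (b : Bool) (w : Bool × Bool) : ℝ :=
  ∑ x, if f x = b then (1 / 2 ^ n) * (bsc ε (x i) w.1 * bsc ε (x j) w.2) else 0

end Vale.Agent.Lib.P322
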