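import Mathlib

open Finset BigOperators

namespace Vale.Agent.Lib.P322

/-- The entropy kernel `(1+u) log (1+u) + (1-u) log (1-u)`. -/
noncomputable def phi (u : ℝ) : ℝ :=
  (1 + u) * Real.log (1 + u) + (1 - u) * Real.log (1 - u)

lemma phi_neg (u : ℝ) : phi (-u) = phi u := by
  unfold phi
  have h1 : (1 + -u) = 1 - u := by ring
  have h2 : (1 - -u) = 1 + u := by ring
  rw [h1, h2]; ring

lemma phi_zero : phi 0 = 0 := by simp [phi]

lemma phi_continuous : Continuous phi := by
  unfold phi
  have h := Real.continuous_mul_log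
  exact (h.comp (continuous_const.add continuous_id)).add
    (h.comp (continuous_const.sub continuous_id))

lemma hasSum_phi {u : ℝ} (hu : |u| < 1) :
    HasSum (fun k : ℕ => u ^ (2 * k + 2) / ((2 * (k : ℝ) + 1) * ((k : ℝ) + 1))) (phi u) := by
  have hu2 : |u ^ 2| < 1 := by
    rw [abs_pow]
    have := abs_nonneg u
    nlinarith
  have h1 := Real.hasSum_pow_div_log_of_abs_lt_one hu2
  have h2 := Real.hasSum_log_sub_log_of_abs_lt_one hu
  have h3 := (h2.mul_left u).sub h1
  have hlt := abs_lt.mp hu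
  have hp : 0 < 1 + u := by linarith
  have hm : 0 < 1 - u := by linarith
  have hlog : Real.log (1 - u ^ 2) = Real.log (1 + u) + Real.log (1 - u) := by
    rw [← Real.log_mul hp.ne' hm.ne']; congr 1; ring
  have hval : u * (Real.log (1 + u) - Real.log (1 - u)) - (-Real.log (1 - u ^ 2)) = phi u := by
    unfold phi; rw [hlog]; ring
  rw [hval] at h3
  have hfun : (fun k : ℕ => u ^ (2 * k + 2) / ((2 * (k : ℝ) + 1) * ((k : ℝ) + 1)))
      = fun b : ℕ => u * (2 * (1 / (2 * (b : ℝ) + 1)) * u ^ (2 * b + 1))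
          - (u ^ 2) ^ (b + 1) / ((b : ℝ) + 1) := by
    funext k
    have h2k : (2 * (k : ℝ) + 1) ≠ 0 := by positivity
    have hk : ((k : ℝ) + 1) ≠ 0 := by positivity
    have e1 : u ^ (2 * k + 2) = u * u ^ (2 * k + 1) := by ring
    have e2 : (u ^ 2) ^ (k + 1) = u * u ^ (2 * k + 1) := by ring
    rw [e1, e2]
    field_simp
    ring
  rw [hfun]
  exact h3

lemma phi_scale_open {c u : ℝ} (hc0 : 0 ≤ c) (hc1 : c ≤ 1) (hu : |u| < 1) :
    phi (c * u) ≤ c ^ 2 * phi u := by
  have hcu : |c * u| < 1 := by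
    rw [abs_mul, abs_of_nonneg hc0]
    have := abs_nonneg u
    nlinarith
  have h1 := hasSum_phi hcu
  have h2 := (hasSum_phi hu).mul_left (c ^ 2)
  refine hasSum_le (fun k => ?_) h1 h2
  have hD : 0 < (2 * (k : ℝ) + 1) * ((k : ℝ) + 1) := by positivity
  have hpow : c ^ (2 * k + 2) ≤ c ^ 2 :=
    pow_le_pow_of_le_one hc0 hc1 (by omega)
  have hunn : 0 ≤ u ^ (2 * k + 2) := by
    have : u ^ (2 * k + 2) = (u ^ (k + 1)) ^ 2 := by ring
    rw [this]; positivity
  rw [mul_pow, ← mul_div_assoc]
  exact div_le_div_of_nonneg_right (mul_le_mul_of_nonneg_right hpow hunn) hD.le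

/-- `phi (c u) ≤ c² phi u` on the closed interval. -/
lemma phi_scale {c u : ℝ} (hc0 : 0 ≤ c) (hc1 : c ≤ 1) (hu : |u| ≤ 1) :
    phi (c * u) ≤ c ^ 2 * phi u := by
  have hcl : IsClosed {v : ℝ | phi (c * v) ≤ c ^ 2 * phi v} :=
    isClosed_le (phi_continuous.comp (continuous_const.mul continuous_id))
      (continuous_const.mul phi_continuous)
  have hsub : Set.Ioo (-1 : ℝ) 1 ⊆ {v : ℝ | phi (c * v) ≤ c ^ 2 * phi v} := by
    intro v hv
    exact phi_scale_open hc0 hc1 (abs_lt.mpr hv)
  have hclo := closure_minimal hsub hcl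
  rw [closure_Ioo (by norm_num)] at hclo
  exact hclo (abs_le.mp hu)

lemma phi_ge_sq_open {u : ℝ} (hu : |u| < 1) : u ^ 2 ≤ phi u := by
  have h := hasSum_phi hu
  have := le_hasSum h 0 (fun k _ => by
    have hD : 0 < (2 * (k : ℝ) + 1) * ((k : ℝ) + 1) := by positivity
    have hunn : 0 ≤ u ^ (2 * k + 2) := by
      have : u ^ (2 * k + 2) = (u ^ (k + 1)) ^ 2 := by ring
      rw [this]; positivity
    positivity)
  simpa using this

/-- `u² ≤ phi u` on the closed interval. -/
lemma phi_ge_sq {u : ℝ} (hu : |u| ≤ 1) : u ^ 2 ≤ phi u := by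
  have hcl : IsClosed {v : ℝ | v ^ 2 ≤ phi v} :=
    isClosed_le (continuous_id.pow 2) phi_continuous
  have hsub : Set.Ioo (-1 : ℝ) 1 ⊆ {v : ℝ | v ^ 2 ≤ phi v} := by
    intro v hv
    exact phi_ge_sq_open (abs_lt.mpr hv)
  have hclo := closure_minimal hsub hcl
  rw [closure_Ioo (by norm_num)] at hclo
  exact hclo (abs_le.mp hu)

lemma phi_nonneg {u : ℝ} (hu : |u| ≤ 1) : 0 ≤ phi u :=
  le_trans (sq_nonneg u) (phi_ge_sq hu)

/-- `x log x` -/
noncomputable def psi (t : ℝ) : ℝ := t * Real.log t

lemma psi_zero : psi 0 = 0 := by simp [psi]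
lemma psi_one : psi 1 = 0 := by simp [psi]

lemma psi_mul {m t : ℝ} (hm : 0 < m) (ht : 0 ≤ t) :
    psi (m * t) = m * t * Real.log m + m * psi t := by
  rcases ht.eq_or_lt with rfl | ht'
  · simp [psi]
  · unfold psi
    rw [Real.log_mul hm.ne' ht'.ne']; ring

lemma phi_eq_psi (s : ℝ) : phi s = psi (1 + s) + psi (1 - s) := rfl

lemma psi_split {m s : ℝ} (hm : 0 < m) (hs : |s| ≤ 1) :
    psi (m * (1 + s)) + psi (m * (1 - s)) = 2 * psi m + m * phi s := by
  have hs' := abs_le.mp hs
  rw [psi_mul hm (by linarith), psi_mul hm (by linarith), phi_eq_psi]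
  unfold psi
  ring

/-- Two-point contraction of the entropy under a binary symmetric channel. -/
lemma two_point {a b ε : ℝ} (ha : 0 ≤ a) (hb : 0 ≤ b) (h0 : 0 ≤ ε) (h1 : ε ≤ 1 / 2) :
    (psi ((1 - ε) * a + ε * b) + psi (ε * a + (1 - ε) * b)) / 2 - psi ((a + b) / 2)
      ≤ (1 - 2 * ε) ^ 2 * ((psi a + psi b) / 2 - psi ((a + b) / 2)) := by
  rcases (add_nonneg ha hb).eq_or_lt with h | hab
  · have ha0 : a = 0 := by linarith
    have hb0 : b = 0 := by linarith
    subst ha0; subst hb0
    simp [psi_zero]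
  · set m := (a + b) / 2 with hm
    have hmpos : 0 < m := by positivity
    set s := (a - b) / (a + b) with hs
    have habne : a + b ≠ 0 := hab.ne'
    have hsabs : |s| ≤ 1 := by
      rw [hs, abs_div, abs_of_pos hab, div_le_one hab, abs_le]
      constructor <;> linarith
    have ea : a = m * (1 + s) := by
      rw [hm, hs]; field_simp; ring
    have eb : b = m * (1 - s) := by
      rw [hm, hs]; field_simp; ring
    have eu : (1 - ε) * a + ε * b = m * (1 + (1 - 2 * ε) * s) := by
      rw [ea, eb]; ring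
    have ev : ε * a + (1 - ε) * b = m * (1 - (1 - 2 * ε) * s) := by
      rw [ea, eb]; ring
    have hrho0 : 0 ≤ 1 - 2 * ε := by linarith
    have hrho1 : 1 - 2 * ε ≤ 1 := by linarith
    have hrs : |(1 - 2 * ε) * s| ≤ 1 := by
      rw [abs_mul, abs_of_nonneg hrho0]
      have := abs_nonneg s
      nlinarith
    have key := phi_scale hrho0 hrho1 hsabs
    have e1 := psi_split hmpos hrs
    have e2 := psi_split hmpos hsabs
    rw [eu, ev, e1]
    have e3 : psi a + psi b = 2 * psi m + m * phi s := by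
      rw [← e2, ← ea, ← eb]
    rw [e3]
    have : m * phi ((1 - 2 * ε) * s) ≤ m * ((1 - 2 * ε) ^ 2 * phi s) :=
      mul_le_mul_of_nonneg_left key hmpos.le
    nlinarith

/-- Gibbs inequality in the form `x log y + x - y ≤ x log x`. -/
lemma gibbs {x y : ℝ} (hx : 0 ≤ x) (hy : 0 < y) : x * Real.log y + x - y ≤ psi x := by
  rcases hx.eq_or_lt with rfl | hx'
  · simp [psi]; linarith
  · have h := Real.one_sub_inv_le_log_of_pos (div_pos hx' hy)
    rw [Real.log_div hx'.ne' hy.ne'] at h
    have h2 : x * (1 - (x / y)⁻¹) ≤ x * (Real.log x - Real.log y) :=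
      mul_le_mul_of_nonneg_left h hx
    have h3 : x * (1 - (x / y)⁻¹) = x - y := by
      field_simp
    unfold psi
    rw [h3] at h2
    nlinarith

/-- Pointwise form of the convexity of the entropy functional. -/
lemma psi_convex_pt {a b lam mu A B : ℝ} (ha : 0 ≤ a) (hb : 0 ≤ b) (hl : 0 < lam) (hm : 0 < mu)
    (hA : 0 < A) (hB : 0 < B) :
    psi (lam * a + mu * b) + lam * a * (Real.log A - Real.log (lam * A + mu * B))
        + mu * b * (Real.log B - Real.log (lam * A + mu * B))
      ≤ lam * psi a + mu * psi b := by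
  set F := lam * a + mu * b with hF
  set C := lam * A + mu * B with hC
  have hCpos : 0 < C := by positivity
  have hF0 : 0 ≤ F := by positivity
  rcases hF0.eq_or_lt with hF1 | hFpos
  · have h1 : lam * a = 0 := by
      have : 0 ≤ lam * a := by positivity
      have : 0 ≤ mu * b := by positivity
      linarith
    have h2 : mu * b = 0 := by
      have : 0 ≤ lam * a := by positivity
      have : 0 ≤ mu * b := by positivity
      linarith
    have ha0 : a = 0 := by
      rcases mul_eq_zero.mp h1 with h | h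
      · exact absurd h hl.ne'
      · exact h
    have hb0 : b = 0 := by
      rcases mul_eq_zero.mp h2 with h | h
      · exact absurd h hm.ne'
      · exact h
    rw [← hF1, ha0, hb0]
    simp [psi]
  · set r := F / C with hr
    have hrpos : 0 < r := div_pos hFpos hCpos
    have g1 := gibbs ha (mul_pos hA hrpos)
    have g2 := gibbs hb (mul_pos hB hrpos)
    rw [Real.log_mul hA.ne' hrpos.ne'] at g1
    rw [Real.log_mul hB.ne' hrpos.ne'] at g2
    have g3 : lam * (a * (Real.log A + Real.log r) + a - A * r) ≤ lam * psi a :=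
      mul_le_mul_of_nonneg_left g1 hl.le
    have g4 : mu * (b * (Real.log B + Real.log r) + b - B * r) ≤ mu * psi b :=
      mul_le_mul_of_nonneg_left g2 hm.le
    have hrlog : Real.log r = Real.log F - Real.log C := Real.log_div hFpos.ne' hCpos.ne'
    have hCr : C * r = F := by
      rw [hr]; field_simp
    have hpsiF : psi F = F * Real.log F := rfl
    have expand : lam * (a * (Real.log A + Real.log r) + a - A * r)
        + mu * (b * (Real.log B + Real.log r) + b - B * r)
        = lam * a * Real.log A + mu * b * Real.log B + F * Real.log r + F - C * r := by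
      rw [hF, hC]; ring
    have hFC : F * Real.log C = lam * a * Real.log C + mu * b * Real.log C := by
      rw [hF]; ring
    rw [hrlog, hCr] at expand
    rw [hpsiF]
    have e5 : F * (Real.log F - Real.log C) = F * Real.log F - F * Real.log C := by ring
    rw [e5] at expand
    nlinarith

end Vale.Agent.Lib.P322
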