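import Vale.Agent.Lib.P322.Defs
import Vale.Agent.Lib.P322.Phi

open Finset BigOperators

namespace Vale.Agent.Lib.P322

/-- average over the cube -/
noncomputable def avg {n : ℕ} (g : (Fin n → Bool) → ℝ) : ℝ := (∑ x, g x) / 2 ^ n

/-- entropy functional -/
noncomputable def Ent {n : ℕ} (g : (Fin n → Bool) → ℝ) : ℝ :=
  avg (fun x => psi (g x)) - psi (avg g)

lemma avg_nonneg {n : ℕ} {g : (Fin n → Bool) → ℝ} (hg : ∀ x, 0 ≤ g x) : 0 ≤ avg g := by
  unfold avg; exact div_nonneg (sum_nonneg fun x _ => hg x) (by positivity)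

lemma avg_eq_zero {n : ℕ} {g : (Fin n → Bool) → ℝ} (hg : ∀ x, 0 ≤ g x) (h : avg g = 0) :
    ∀ x, g x = 0 := by
  have h2 : (2 : ℝ) ^ n ≠ 0 := by positivity
  unfold avg at h
  rw [div_eq_zero_iff] at h
  rcases h with h | h
  · intro x
    exact (sum_eq_zero_iff_of_nonneg (fun x _ => hg x)).mp h x (mem_univ x)
  · exact absurd h h2

lemma avg_add {n : ℕ} (g h : (Fin n → Bool) → ℝ) :
    avg (fun x => g x + h x) = avg g + avg h := by
  unfold avg; rw [sum_add_distrib]; ring

lemma avg_const_mul {n : ℕ} (c : ℝ) (g : (Fin n → Bool) → ℝ) :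
    avg (fun x => c * g x) = c * avg g := by
  unfold avg; rw [← mul_sum]; ring

lemma psi_mul' {m t : ℝ} (hm : 0 < m) (ht : 0 ≤ t) :
    psi (m * t) = m * psi t + t * (m * Real.log m) := by
  rw [psi_mul hm ht]; ring

lemma Ent_smul {n : ℕ} {c : ℝ} (hc : 0 < c) {g : (Fin n → Bool) → ℝ} (hg : ∀ x, 0 ≤ g x) :
    Ent (fun x => c * g x) = c * Ent g := by
  unfold Ent
  rw [avg_const_mul]
  have h1 : (fun x => psi (c * g x)) = fun x => c * psi (g x) + g x * (c * Real.log c) := by
    funext x; exact psi_mul' hc (hg x)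
  rw [h1, avg_add, avg_const_mul, psi_mul' hc (avg_nonneg hg)]
  have h2 : avg (fun x => g x * (c * Real.log c)) = avg g * (c * Real.log c) := by
    have : (fun x => g x * (c * Real.log c)) = fun x => (c * Real.log c) * g x := by
      funext x; ring
    rw [this, avg_const_mul]; ring
  rw [h2]; ring

lemma Ent_zero {n : ℕ} : Ent (fun _ : Fin n → Bool => (0 : ℝ)) = 0 := by
  unfold Ent avg
  simp [psi_zero]

lemma Ent_congr {n : ℕ} {g h : (Fin n → Bool) → ℝ} (e : ∀ x, g x = h x) : Ent g = Ent h := by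
  have : g = h := funext e
  rw [this]

/-- Convexity of the entropy functional. -/
lemma Ent_convex {n : ℕ} {g h : (Fin n → Bool) → ℝ} (hg : ∀ x, 0 ≤ g x) (hh : ∀ x, 0 ≤ h x)
    {lam mu : ℝ} (hl : 0 ≤ lam) (hm : 0 ≤ mu) (hs : lam + mu = 1) :
    Ent (fun x => lam * g x + mu * h x) ≤ lam * Ent g + mu * Ent h := by
  rcases hl.eq_or_lt with hl0 | hlp
  · have hm1 : mu = 1 := by linarith
    subst hl0; subst hm1
    simp
  rcases hm.eq_or_lt with hm0 | hmp
  · have hl1 : lam = 1 := by linarith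
    subst hm0; subst hl1
    simp
  rcases (avg_nonneg hg).eq_or_lt with hA0 | hA
  · have hg0 := avg_eq_zero hg hA0.symm
    have e : ∀ x, lam * g x + mu * h x = mu * h x := by
      intro x; rw [hg0 x]; ring
    rw [Ent_congr e, Ent_smul hmp hh, Ent_congr hg0, Ent_zero]
    simp
  rcases (avg_nonneg hh).eq_or_lt with hB0 | hB
  · have hh0 := avg_eq_zero hh hB0.symm
    have e : ∀ x, lam * g x + mu * h x = lam * g x := by
      intro x; rw [hh0 x]; ring
    rw [Ent_congr e, Ent_smul hlp hg, Ent_congr hh0, Ent_zero]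
    simp
  set A := avg g with hAdef
  set B := avg h with hBdef
  set C := lam * A + mu * B with hCdef
  have hCpos : 0 < C := by positivity
  have hpt : ∀ x, psi (lam * g x + mu * h x) + lam * g x * (Real.log A - Real.log C)
        + mu * h x * (Real.log B - Real.log C)
      ≤ lam * psi (g x) + mu * psi (h x) := fun x =>
    psi_convex_pt (hg x) (hh x) hlp hmp hA hB
  have hsum : avg (fun x => psi (lam * g x + mu * h x) + lam * g x * (Real.log A - Real.log C)
        + mu * h x * (Real.log B - Real.log C))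
      ≤ avg (fun x => lam * psi (g x) + mu * psi (h x)) := by
    unfold avg
    exact div_le_div_of_nonneg_right (sum_le_sum fun x _ => hpt x) (by positivity)
  have e1 : avg (fun x => psi (lam * g x + mu * h x) + lam * g x * (Real.log A - Real.log C)
        + mu * h x * (Real.log B - Real.log C))
      = avg (fun x => psi (lam * g x + mu * h x)) + lam * A * (Real.log A - Real.log C)
        + mu * B * (Real.log B - Real.log C) := by
    rw [avg_add, avg_add]
    have a1 : (fun x => lam * g x * (Real.log A - Real.log C))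
        = fun x => (lam * (Real.log A - Real.log C)) * g x := by funext x; ring
    have a2 : (fun x => mu * h x * (Real.log B - Real.log C))
        = fun x => (mu * (Real.log B - Real.log C)) * h x := by funext x; ring
    rw [a1, a2, avg_const_mul, avg_const_mul, ← hAdef, ← hBdef]; ring
  have e2 : avg (fun x => lam * psi (g x) + mu * psi (h x))
      = lam * avg (fun x => psi (g x)) + mu * avg (fun x => psi (h x)) := by
    rw [avg_add, avg_const_mul, avg_const_mul]
  have e3 : avg (fun x => lam * g x + mu * h x) = C := by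
    rw [avg_add, avg_const_mul, avg_const_mul]
  rw [e1, e2] at hsum
  unfold Ent
  rw [e3, ← hAdef, ← hBdef]
  have e4 : psi C = lam * A * Real.log C + mu * B * Real.log C := by
    unfold psi; rw [hCdef]; ring
  have e5 : psi A = A * Real.log A := rfl
  have e6 : psi B = B * Real.log B := rfl
  rw [e4, e5, e6]
  nlinarith

/-- Noise operator. -/
noncomputable def noise (ε : ℝ) {n : ℕ} (g : (Fin n → Bool) → ℝ) (y : Fin n → Bool) : ℝ :=
  ∑ x, (∏ i, bsc ε (x i) (y i)) * g x

lemma bsc_nonneg {ε : ℝ} (h0 : 0 ≤ ε) (h1 : ε ≤ 1 / 2) (a b : Bool) : 0 ≤ bsc ε a b := by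
  unfold bsc; split_ifs <;> linarith

lemma sum_bsc_left (ε : ℝ) (b : Bool) : ∑ a, bsc ε a b = 1 := by
  cases b <;> simp [bsc]

lemma sum_bsc_right (ε : ℝ) (a : Bool) : ∑ b, bsc ε a b = 1 := by
  cases a <;> simp [bsc]

lemma sum_cube_succ {n : ℕ} (F : (Fin (n + 1) → Bool) → ℝ) :
    ∑ x, F x = ∑ b : Bool, ∑ x : Fin n → Bool, F (Fin.cons b x) := by
  rw [← Fintype.sum_prod_type']
  exact (Fintype.sum_equiv (Fin.consEquiv (fun _ : Fin (n + 1) => Bool))
    (fun p => F ((Fin.consEquiv (fun _ : Fin (n + 1) => Bool)) p)) F (fun _ => rfl)).symm ▸ rfl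


lemma sum_kernel_y (ε : ℝ) {n : ℕ} (x : Fin n → Bool) :
    ∑ y : Fin n → Bool, ∏ i, bsc ε (x i) (y i) = 1 := by
  have := Finset.prod_univ_sum (fun _ : Fin n => (univ : Finset Bool))
    (fun i b => bsc ε (x i) b)
  simp only [Fintype.piFinset_univ] at this
  rw [← this]
  exact prod_eq_one fun i _ => sum_bsc_right ε (x i)

lemma sum_kernel_x (ε : ℝ) {n : ℕ} (y : Fin n → Bool) :
    ∑ x : Fin n → Bool, ∏ i, bsc ε (x i) (y i) = 1 := by
  have := Finset.prod_univ_sum (fun _ : Fin n => (univ : Finset Bool))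
    (fun i b => bsc ε b (y i))
  simp only [Fintype.piFinset_univ] at this
  rw [← this]
  exact prod_eq_one fun i _ => sum_bsc_left ε (y i)

lemma kernel_nonneg {ε : ℝ} (h0 : 0 ≤ ε) (h1 : ε ≤ 1 / 2) {n : ℕ} (x y : Fin n → Bool) :
    0 ≤ ∏ i, bsc ε (x i) (y i) :=
  prod_nonneg fun _ _ => bsc_nonneg h0 h1 _ _

lemma noise_nonneg {ε : ℝ} (h0 : 0 ≤ ε) (h1 : ε ≤ 1 / 2) {n : ℕ} {g : (Fin n → Bool) → ℝ}
    (hg : ∀ x, 0 ≤ g x) (y : Fin n → Bool) : 0 ≤ noise ε g y :=
  sum_nonneg fun x _ => mul_nonneg (kernel_nonneg h0 h1 x y) (hg x)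

lemma avg_noise (ε : ℝ) {n : ℕ} (g : (Fin n → Bool) → ℝ) : avg (noise ε g) = avg g := by
  unfold avg noise
  congr 1
  rw [sum_comm]
  refine sum_congr rfl fun x _ => ?_
  rw [← sum_mul, sum_kernel_y, one_mul]

lemma avg_succ {n : ℕ} (k : (Fin (n + 1) → Bool) → ℝ) :
    avg k = (avg (fun x : Fin n → Bool => k (Fin.cons true x))
      + avg (fun x : Fin n → Bool => k (Fin.cons false x))) / 2 := by
  unfold avg
  rw [sum_cube_succ, Fintype.sum_bool, pow_succ]
  have h2 : (2 : ℝ) ^ n ≠ 0 := by positivity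
  field_simp

lemma Ent_succ {n : ℕ} (k : (Fin (n + 1) → Bool) → ℝ) :
    Ent k = (Ent (fun x : Fin n → Bool => k (Fin.cons true x))
        + Ent (fun x : Fin n → Bool => k (Fin.cons false x))) / 2
      + ((psi (avg (fun x : Fin n → Bool => k (Fin.cons true x)))
        + psi (avg (fun x : Fin n → Bool => k (Fin.cons false x)))) / 2
      - psi ((avg (fun x : Fin n → Bool => k (Fin.cons true x))
        + avg (fun x : Fin n → Bool => k (Fin.cons false x))) / 2)) := by
  unfold Ent
  rw [avg_succ (fun x => psi (k x)), avg_succ k]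
  ring

lemma noise_succ (ε : ℝ) {n : ℕ} (g : (Fin (n + 1) → Bool) → ℝ) (c : Bool) (y : Fin n → Bool) :
    noise ε g (Fin.cons c y) = noise ε (fun x : Fin n → Bool =>
      bsc ε true c * g (Fin.cons true x) + bsc ε false c * g (Fin.cons false x)) y := by
  unfold noise
  rw [sum_cube_succ, Fintype.sum_bool, ← sum_add_distrib]
  refine sum_congr rfl fun x _ => ?_
  simp only [Fin.prod_univ_succ, Fin.cons_zero, Fin.cons_succ]
  ring

lemma Ent_cube_zero (g : (Fin 0 → Bool) → ℝ) : Ent g = 0 := by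
  unfold Ent avg
  simp

/-- Strong data processing: entropy contraction for the noise operator. -/
theorem sdpi {ε : ℝ} (h0 : 0 ≤ ε) (h1 : ε ≤ 1 / 2) :
    ∀ (n : ℕ) (g : (Fin n → Bool) → ℝ), (∀ x, 0 ≤ g x) →
      Ent (noise ε g) ≤ (1 - 2 * ε) ^ 2 * Ent g := by
  intro n
  induction n with
  | zero =>
    intro g _
    rw [Ent_cube_zero, Ent_cube_zero]; simp
  | succ n ih =>
    intro g hg
    set gt : (Fin n → Bool) → ℝ := fun x => g (Fin.cons true x) with hgt
    set gf : (Fin n → Bool) → ℝ := fun x => g (Fin.cons false x) with hgf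
    have hgtn : ∀ x, 0 ≤ gt x := fun x => hg _
    have hgfn : ∀ x, 0 ≤ gf x := fun x => hg _
    have hρ : 0 ≤ (1 - 2 * ε) ^ 2 := sq_nonneg _
    -- slices of the noised function
    set Gt : (Fin n → Bool) → ℝ := fun x => (1 - ε) * gt x + ε * gf x with hGt
    set Gf : (Fin n → Bool) → ℝ := fun x => ε * gt x + (1 - ε) * gf x with hGf
    have hslt : (fun y : Fin n → Bool => noise ε g (Fin.cons true y)) = noise ε Gt := by
      funext y
      rw [noise_succ]
      simp [bsc, hGt, hgt, hgf]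
    have hslf : (fun y : Fin n → Bool => noise ε g (Fin.cons false y)) = noise ε Gf := by
      funext y
      rw [noise_succ]
      simp [bsc, hGf, hgt, hgf]
    have hε1 : 0 ≤ 1 - ε := by linarith
    have hGtn : ∀ x, 0 ≤ Gt x := fun x =>
      add_nonneg (mul_nonneg hε1 (hgtn x)) (mul_nonneg h0 (hgfn x))
    have hGfn : ∀ x, 0 ≤ Gf x := fun x =>
      add_nonneg (mul_nonneg h0 (hgtn x)) (mul_nonneg hε1 (hgfn x))
    have c1 : Ent Gt ≤ (1 - ε) * Ent gt + ε * Ent gf :=
      Ent_convex hgtn hgfn hε1 h0 (by ring)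
    have c2 : Ent Gf ≤ ε * Ent gt + (1 - ε) * Ent gf :=
      Ent_convex hgtn hgfn h0 hε1 (by ring)
    have i1 := ih Gt hGtn
    have i2 := ih Gf hGfn
    have at1 : avg Gt = (1 - ε) * avg gt + ε * avg gf := by
      rw [hGt, avg_add, avg_const_mul, avg_const_mul]
    have at2 : avg Gf = ε * avg gt + (1 - ε) * avg gf := by
      rw [hGf, avg_add, avg_const_mul, avg_const_mul]
    have tp := two_point (avg_nonneg hgtn) (avg_nonneg hgfn) h0 h1
    rw [Ent_succ (noise ε g), hslt, hslf, avg_noise, avg_noise, at1, at2, Ent_succ g]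
    have ring1 : ((1 - ε) * avg gt + ε * avg gf + (ε * avg gt + (1 - ε) * avg gf)) / 2
        = (avg gt + avg gf) / 2 := by ring
    rw [ring1]
    have hsum : Ent (noise ε Gt) + Ent (noise ε Gf)
        ≤ (1 - 2 * ε) ^ 2 * (Ent gt + Ent gf) := by
      have m1 := mul_le_mul_of_nonneg_left c1 hρ
      have m2 := mul_le_mul_of_nonneg_left c2 hρ
      nlinarith
    nlinarith

end Vale.Agent.Lib.P322
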