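import Vale.Agent.Lib.P322.Full

open Finset BigOperators

namespace Vale.Agent.Lib.P322

/-- sign of a bit -/
noncomputable def sg (b : Bool) : ℝ := if b then 1 else -1

lemma sg_sq (b : Bool) : sg b * sg b = 1 := by cases b <;> simp [sg]

lemma sg_abs (b : Bool) : |sg b| = 1 := by cases b <;> simp [sg]

lemma sg_not (b : Bool) : sg (!b) = - sg b := by cases b <;> simp [sg]

lemma bsc_eq (ε : ℝ) (a b : Bool) : bsc ε a b = (1 + (1 - 2 * ε) * (sg a * sg b)) / 2 := by
  cases a <;> cases b <;> simp [bsc, sg] <;> ring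

/-- character -/
noncomputable def chi {n : ℕ} (S : Finset (Fin n)) (x : Fin n → Bool) : ℝ := ∏ i ∈ S, sg (x i)

lemma chi_eq_prod {n : ℕ} (S : Finset (Fin n)) (x : Fin n → Bool) :
    chi S x = ∏ j, (if j ∈ S then sg (x j) else 1) := by
  unfold chi
  rw [Finset.prod_ite_mem, Finset.univ_inter]

lemma avg_chi_mul {n : ℕ} (S T : Finset (Fin n)) :
    avg (fun x => chi S x * chi T x) = if S = T then 1 else 0 := by
  have hprod : ∀ x : Fin n → Bool, chi S x * chi T x
      = ∏ j, ((if j ∈ S then sg (x j) else 1) * (if j ∈ T then sg (x j) else 1)) := by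
    intro x
    rw [chi_eq_prod, chi_eq_prod, Finset.prod_mul_distrib]
  have hsum : ∑ x : Fin n → Bool, chi S x * chi T x
      = ∏ j : Fin n, ∑ b : Bool, ((if j ∈ S then sg b else 1) * (if j ∈ T then sg b else 1)) := by
    have := Finset.prod_univ_sum (fun _ : Fin n => (univ : Finset Bool))
      (fun j b => (if j ∈ S then sg b else 1) * (if j ∈ T then sg b else 1))
    simp only [Fintype.piFinset_univ] at this
    rw [this]
    exact sum_congr rfl fun x _ => hprod x
  unfold avg
  rw [hsum]
  split_ifs with h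
  · subst h
    have : ∀ j : Fin n, ∑ b : Bool, ((if j ∈ S then sg b else 1) * (if j ∈ S then sg b else 1))
        = 2 := by
      intro j
      by_cases hj : j ∈ S
      · simp [hj, sg_sq]
      · simp [hj]
    rw [Finset.prod_congr rfl (fun j _ => this j)]
    simp
  · obtain ⟨j, hj⟩ : ∃ j, (j ∈ S ∧ j ∉ T) ∨ (j ∉ S ∧ j ∈ T) := by
      by_contra hcon
      push Not at hcon
      apply h
      ext j
      have := hcon j
      tauto
    have hz : ∑ b : Bool, ((if j ∈ S then sg b else 1) * (if j ∈ T then sg b else 1)) = 0 := by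
      rcases hj with ⟨h1, h2⟩ | ⟨h1, h2⟩
      · simp [h1, h2, sg]
      · simp [h1, h2, sg]
    rw [Finset.prod_eq_zero (mem_univ j) hz]
    simp

lemma chi_empty {n : ℕ} (x : Fin n → Bool) : chi (∅ : Finset (Fin n)) x = 1 := by
  simp [chi]

lemma avg_chi {n : ℕ} {S : Finset (Fin n)} (hS : S ≠ ∅) : avg (chi S) = 0 := by
  have h := avg_chi_mul S ∅
  rw [if_neg hS] at h
  simpa [chi_empty] using h

lemma avg_sum {n : ℕ} {ι : Type} (t : Finset ι) (h : ι → (Fin n → Bool) → ℝ) :
    avg (fun x => ∑ i ∈ t, h i x) = ∑ i ∈ t, avg (h i) := by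
  unfold avg
  rw [sum_comm, sum_div]

/-- Fourier coefficient of the indicator of `f = true`. -/
noncomputable def Fhat {n : ℕ} (f : (Fin n → Bool) → Bool) (S : Finset (Fin n)) : ℝ :=
  avg (fun x => ind f true x * chi S x)

lemma ind_sq {n : ℕ} (f : (Fin n → Bool) → Bool) (b : Bool) (x : Fin n → Bool) :
    ind f b x * ind f b x = ind f b x := by
  unfold ind; split_ifs <;> simp

/-- Bessel inequality for an injective family of nonempty characters. -/
theorem bessel {n : ℕ} (f : (Fin n → Bool) → Bool) {ι : Type} [Fintype ι] [DecidableEq ι]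
    (S : ι → Finset (Fin n)) (hinj : Function.Injective S) (hne : ∀ i, S i ≠ ∅) :
    ∑ i, (Fhat f (S i)) ^ 2 ≤ pOne f * (1 - pOne f) := by
  set p := pOne f with hp
  set c : ι → ℝ := fun i => Fhat f (S i) with hc
  have hpos : 0 ≤ avg (fun x => (ind f true x - p - ∑ i, c i * chi (S i) x) ^ 2) :=
    avg_nonneg fun x => sq_nonneg _
  have hexp : ∀ x, (ind f true x - p - ∑ i, c i * chi (S i) x) ^ 2
      = ind f true x * (1 - 2 * p) + p ^ 2
        - 2 * ∑ i, c i * (ind f true x * chi (S i) x)
        + 2 * p * ∑ i, c i * chi (S i) x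
        + ∑ i, ∑ j, c i * c j * (chi (S i) x * chi (S j) x) := by
    intro x
    have h1 : ∑ i, ∑ j, c i * c j * (chi (S i) x * chi (S j) x)
        = (∑ i, c i * chi (S i) x) * (∑ i, c i * chi (S i) x) := by
      rw [Finset.sum_mul_sum]
      refine sum_congr rfl fun i _ => sum_congr rfl fun j _ => ?_
      ring
    have h2 : ∑ i, c i * (ind f true x * chi (S i) x)
        = ind f true x * ∑ i, c i * chi (S i) x := by
      rw [mul_sum]
      refine sum_congr rfl fun i _ => ?_
      ring
    rw [h1, h2]
    have h3 := ind_sq f true x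
    set F := ind f true x
    set E := ∑ i, c i * chi (S i) x
    have : (F - p - E) ^ 2 = F * F - 2 * F * p + p ^ 2 - 2 * F * E + 2 * p * E + E * E := by ring
    rw [this, h3]
    ring
  have havg : avg (fun x => (ind f true x - p - ∑ i, c i * chi (S i) x) ^ 2)
      = p * (1 - 2 * p) + p ^ 2 - 2 * ∑ i, c i * c i + 0 + ∑ i, c i * c i := by
    have : (fun x => (ind f true x - p - ∑ i, c i * chi (S i) x) ^ 2)
        = fun x => ind f true x * (1 - 2 * p) + p ^ 2
        - 2 * ∑ i, c i * (ind f true x * chi (S i) x)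
        + 2 * p * ∑ i, c i * chi (S i) x
        + ∑ i, ∑ j, c i * c j * (chi (S i) x * chi (S j) x) := funext hexp
    rw [this]
    have a1 : avg (fun x => ind f true x * (1 - 2 * p)) = p * (1 - 2 * p) := by
      have : (fun x => ind f true x * (1 - 2 * p)) = fun x => (1 - 2 * p) * ind f true x := by
        funext x; ring
      rw [this, avg_const_mul]
      have : avg (fun x => ind f true x) = p := avg_ind_true f
      rw [this]; ring
    have a2 : avg (fun _ : Fin n → Bool => p ^ 2) = p ^ 2 := by
      unfold avg; simp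
    have a3 : avg (fun x => ∑ i, c i * (ind f true x * chi (S i) x)) = ∑ i, c i * c i := by
      rw [avg_sum]
      refine sum_congr rfl fun i _ => ?_
      rw [avg_const_mul]
      rfl
    have a4 : avg (fun x => ∑ i, c i * chi (S i) x) = 0 := by
      rw [avg_sum]
      refine sum_eq_zero fun i _ => ?_
      rw [avg_const_mul]
      have : avg (fun x => chi (S i) x) = 0 := avg_chi (hne i)
      rw [this, mul_zero]
    have a5 : avg (fun x => ∑ i, ∑ j, c i * c j * (chi (S i) x * chi (S j) x))
        = ∑ i, c i * c i := by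
      rw [avg_sum]
      refine sum_congr rfl fun i _ => ?_
      rw [avg_sum]
      rw [Finset.sum_eq_single i]
      · rw [avg_const_mul, avg_chi_mul, if_pos rfl, mul_one]
      · intro j _ hj
        rw [avg_const_mul, avg_chi_mul, if_neg (fun h => hj (hinj h).symm), mul_zero]
      · intro h; exact absurd (mem_univ i) h
    have sub_add : ∀ (A B C D E : (Fin n → Bool) → ℝ),
        avg (fun x => A x + B x - C x + D x + E x) = avg A + avg B - avg C + avg D + avg E := by
      intro A B C D E
      unfold avg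
      simp only [sum_add_distrib, sum_sub_distrib]
      ring
    rw [sub_add]
    have a6 : avg (fun x => 2 * ∑ i, c i * (ind f true x * chi (S i) x))
        = 2 * ∑ i, c i * c i := by
      rw [avg_const_mul, a3]
    have a7 : avg (fun x => 2 * p * ∑ i, c i * chi (S i) x) = 0 := by
      rw [avg_const_mul, a4, mul_zero]
    rw [a1, a2, a6, a7, a5]
  rw [havg] at hpos
  have : ∑ i, (c i) ^ 2 = ∑ i, c i * c i := sum_congr rfl fun i _ => by ring
  have h4 : ∑ i, (c i) ^ 2 ≤ p * (1 - p) := by
    rw [this]
    nlinarith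
  exact h4

end Vale.Agent.Lib.P322
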