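import Vale.Agent.Lib.P322.Ent

open Finset BigOperators

namespace Vale.Agent.Lib.P322

/-- indicator of `f = b` -/
noncomputable def ind {n : ℕ} (f : (Fin n → Bool) → Bool) (b : Bool) (x : Fin n → Bool) : ℝ :=
  if f x = b then 1 else 0

lemma ind_nonneg {n : ℕ} (f : (Fin n → Bool) → Bool) (b : Bool) (x : Fin n → Bool) :
    0 ≤ ind f b x := by
  unfold ind; split_ifs <;> norm_num

lemma ind_add {n : ℕ} (f : (Fin n → Bool) → Bool) (x : Fin n → Bool) :
    ind f true x + ind f false x = 1 := by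
  unfold ind
  cases f x <;> simp

lemma avg_ind_true {n : ℕ} (f : (Fin n → Bool) → Bool) : avg (ind f true) = pOne f := by
  unfold avg pOne ind
  congr 1
  rw [Finset.sum_ite, Finset.sum_const_zero, add_zero, Finset.sum_const, nsmul_eq_mul, mul_one]

lemma avg_ind_false {n : ℕ} (f : (Fin n → Bool) → Bool) : avg (ind f false) = 1 - pOne f := by
  have h : avg (fun x => ind f true x + ind f false x) = 1 := by
    have : (fun x => ind f true x + ind f false x) = fun _ => (1 : ℝ) := funext (ind_add f)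
    rw [this]
    unfold avg
    simp
  rw [avg_add] at h
  have h2 : avg (fun x => ind f true x) = pOne f := avg_ind_true f
  rw [h2] at h
  have h3 : avg (fun x => ind f false x) = avg (ind f false) := rfl
  rw [h3] at h
  linarith

lemma jointFull_eq {n : ℕ} (f : (Fin n → Bool) → Bool) (ε : ℝ) (b : Bool) (y : Fin n → Bool) :
    jointFull f ε b y = noise ε (ind f b) y / 2 ^ n := by
  unfold jointFull noise ind
  rw [sum_div]
  refine sum_congr rfl fun x _ => ?_
  split_ifs <;> simp <;> ring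

lemma sum_jointFull_y {n : ℕ} (f : (Fin n → Bool) → Bool) (ε : ℝ) (b : Bool) :
    ∑ y, jointFull f ε b y = avg (ind f b) := by
  simp_rw [jointFull_eq]
  rw [← sum_div]
  exact avg_noise ε (ind f b)

lemma sum_jointFull_b {n : ℕ} (f : (Fin n → Bool) → Bool) (ε : ℝ) (y : Fin n → Bool) :
    ∑ b, jointFull f ε b y = 1 / 2 ^ n := by
  rw [Fintype.sum_bool, jointFull_eq, jointFull_eq, ← add_div]
  congr 1
  unfold noise
  rw [← sum_add_distrib, ← sum_kernel_x ε y]
  refine sum_congr rfl fun x _ => ?_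
  rw [← mul_add, ind_add, mul_one]

lemma noise_ind_zero {ε : ℝ} {n : ℕ} {f : (Fin n → Bool) → Bool} {b : Bool}
    (h : avg (ind f b) = 0) (y : Fin n → Bool) : noise ε (ind f b) y = 0 := by
  have h0 := avg_eq_zero (ind_nonneg f b) h
  unfold noise
  exact sum_eq_zero fun x _ => by rw [h0 x, mul_zero]

/-- one line of the information sum -/
lemma term_eq {τ P N : ℝ} (hN : 0 < N) (hτ : 0 ≤ τ) (hP : P = 0 → τ = 0) (hP0 : 0 ≤ P) :
    τ / N * Real.log (τ / N / (P * (1 / N))) = (psi τ - τ * Real.log P) / N := by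
  rcases hτ.eq_or_lt with h | h
  · rw [← h]; simp [psi]
  · have hPpos : 0 < P := by
      rcases hP0.eq_or_lt with h' | h'
      · exact absurd (hP h'.symm) h.ne'
      · exact h'
    have e : τ / N / (P * (1 / N)) = τ / P := by
      field_simp
    rw [e, Real.log_div h.ne' hPpos.ne']
    unfold psi
    ring

lemma info_eq_Ent {n : ℕ} (f : (Fin n → Bool) → Bool) {ε : ℝ} (h0 : 0 ≤ ε) (h1 : ε ≤ 1 / 2)
    (b : Bool) :
    ∑ y, jointFull f ε b y * Real.log (jointFull f ε b y /
        ((∑ y', jointFull f ε b y') * (∑ b', jointFull f ε b' y)))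
      = Ent (noise ε (ind f b)) := by
  set P := avg (ind f b) with hP
  have hPn : 0 ≤ P := avg_nonneg (ind_nonneg f b)
  have hN : (0 : ℝ) < 2 ^ n := by positivity
  have step : ∀ y, jointFull f ε b y * Real.log (jointFull f ε b y /
        ((∑ y', jointFull f ε b y') * (∑ b', jointFull f ε b' y)))
      = (psi (noise ε (ind f b) y) - noise ε (ind f b) y * Real.log P) / 2 ^ n := by
    intro y
    rw [sum_jointFull_y, sum_jointFull_b, jointFull_eq]
    exact term_eq hN (noise_nonneg h0 h1 (ind_nonneg f b) y)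
      (fun h => noise_ind_zero h y) hPn
  simp_rw [step]
  unfold Ent
  rw [avg_noise, ← sum_div, sum_sub_distrib, ← sum_mul, sub_div]
  have e1 : (∑ y, noise ε (ind f b) y) / 2 ^ n = P := avg_noise ε (ind f b)
  have e2 : (∑ y, noise ε (ind f b) y) * Real.log P / 2 ^ n = P * Real.log P := by
    rw [← e1]; ring
  rw [e2]
  rfl

lemma Ent_ind {n : ℕ} (f : (Fin n → Bool) → Bool) (b : Bool) :
    Ent (ind f b) = - psi (avg (ind f b)) := by
  unfold Ent
  have : (fun x => psi (ind f b x)) = fun _ => (0 : ℝ) := by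
    funext x
    unfold ind
    split_ifs
    · exact psi_one
    · exact psi_zero
  rw [this]
  unfold avg
  simp

lemma h2_eq (p : ℝ) : h2 p = -(psi p + psi (1 - p)) / Real.log 2 := by
  unfold h2 psi Real.logb
  ring

/-- The strong data processing bound for the full output. -/
theorem mi_full_le {n : ℕ} (f : (Fin n → Bool) → Bool) {ε : ℝ} (h0 : 0 ≤ ε) (h1 : ε ≤ 1 / 2) :
    mutualInfo (jointFull f ε) ≤ (1 - 2 * ε) ^ 2 * h2 (pOne f) := by
  have hlog2 : 0 < Real.log 2 := Real.log_pos (by norm_num)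
  have key : ∀ b, ∑ y, jointFull f ε b y * Real.logb 2 (jointFull f ε b y /
        ((∑ y', jointFull f ε b y') * (∑ b', jointFull f ε b' y)))
      = Ent (noise ε (ind f b)) / Real.log 2 := by
    intro b
    rw [← info_eq_Ent f h0 h1 b, sum_div]
    refine sum_congr rfl fun y _ => ?_
    unfold Real.logb
    ring
  unfold mutualInfo
  simp_rw [key]
  rw [Fintype.sum_bool, h2_eq, ← add_div]
  have s1 := sdpi h0 h1 n (ind f true) (ind_nonneg f true)
  have s2 := sdpi h0 h1 n (ind f false) (ind_nonneg f false)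
  rw [Ent_ind, avg_ind_true] at s1
  rw [Ent_ind, avg_ind_false] at s2
  have : Ent (noise ε (ind f true)) + Ent (noise ε (ind f false))
      ≤ (1 - 2 * ε) ^ 2 * (-(psi (pOne f) + psi (1 - pOne f))) := by
    nlinarith
  calc _ ≤ (1 - 2 * ε) ^ 2 * (-(psi (pOne f) + psi (1 - pOne f))) / Real.log 2 :=
        div_le_div_of_nonneg_right this hlog2.le
    _ = _ := by ring

/-- `1 - h2 ε` in terms of `phi`. -/
lemma one_sub_h2 {ε : ℝ} (h0 : 0 ≤ ε) (h1 : ε ≤ 1 / 2) :
    1 - h2 ε = phi (1 - 2 * ε) / (2 * Real.log 2) := by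
  have hlog2 : 0 < Real.log 2 := Real.log_pos (by norm_num)
  have e1 : (1 : ℝ) + (1 - 2 * ε) = 2 * (1 - ε) := by ring
  have e2 : (1 : ℝ) - (1 - 2 * ε) = 2 * ε := by ring
  have p1 : psi (2 * (1 - ε)) = 2 * (1 - ε) * Real.log 2 + 2 * psi (1 - ε) :=
    psi_mul (by norm_num) (by linarith)
  have p2 : psi (2 * ε) = 2 * ε * Real.log 2 + 2 * psi ε :=
    psi_mul (by norm_num) h0
  rw [h2_eq, phi_eq_psi, e1, e2, p1, p2]
  field_simp
  ring

/-- The full Courtade-Kumar inequality under the entropy condition. -/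
theorem ck_of_entropy_small {n : ℕ} (f : (Fin n → Bool) → Bool) {ε : ℝ} (h0 : 0 ≤ ε)
    (h1 : ε ≤ 1 / 2) (hp : h2 (pOne f) ≤ 1 / (2 * Real.log 2)) :
    mutualInfo (jointFull f ε) ≤ 1 - h2 ε := by
  have hlog2 : 0 < Real.log 2 := Real.log_pos (by norm_num)
  have hρ : |1 - 2 * ε| ≤ 1 := by
    rw [abs_le]; constructor <;> linarith
  have h3 := phi_ge_sq hρ
  rw [one_sub_h2 h0 h1]
  refine (mi_full_le f h0 h1).trans ?_
  have hs : 0 ≤ (1 - 2 * ε) ^ 2 := sq_nonneg _
  calc (1 - 2 * ε) ^ 2 * h2 (pOne f) ≤ (1 - 2 * ε) ^ 2 * (1 / (2 * Real.log 2)) :=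
        mul_le_mul_of_nonneg_left hp hs
    _ = (1 - 2 * ε) ^ 2 / (2 * Real.log 2) := by ring
    _ ≤ phi (1 - 2 * ε) / (2 * Real.log 2) :=
        div_le_div_of_nonneg_right h3 (by positivity)

end Vale.Agent.Lib.P322
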