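import Vale.Agent.Lib.P322.Coord

open Finset BigOperators

namespace Vale.Agent.Lib.P322

lemma jointPair_eq {n : ℕ} (f : (Fin n → Bool) → Bool) (ε : ℝ) (i j : Fin n) (b : Bool)
    (w : Bool × Bool) :
    jointPair f ε i j b w = avg (fun x => ind f b x * (bsc ε (x i) w.1 * bsc ε (x j) w.2)) := by
  unfold jointPair avg ind
  rw [sum_div]
  refine sum_congr rfl fun x _ => ?_
  split_ifs
  · ring
  · ring

lemma avg_FW {n : ℕ} (f : (Fin n → Bool) → Bool) {i j : Fin n} (hij : i ≠ j) (α β : ℝ) :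
    avg (fun x => ind f true x * ((1 + α * sg (x i)) * (1 + β * sg (x j))))
      = pOne f + α * Fhat f {i} + β * Fhat f {j} + α * β * Fhat f {i, j} := by
  have e : (fun x => ind f true x * ((1 + α * sg (x i)) * (1 + β * sg (x j))))
      = fun x => ind f true x + (α * (ind f true x * chi {i} x)
          + (β * (ind f true x * chi {j} x) + (α * β) * (ind f true x * chi {i, j} x))) := by
    funext x
    rw [chi_singleton, chi_singleton, chi_pair hij]
    ring
  rw [e, avg_add, avg_add, avg_add, avg_const_mul, avg_const_mul, avg_const_mul, avg_ind_true]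
  unfold Fhat
  ring

lemma avg_W {n : ℕ} {i j : Fin n} (hij : i ≠ j) (α β : ℝ) :
    avg (fun x : Fin n → Bool => (1 + α * sg (x i)) * (1 + β * sg (x j))) = 1 := by
  have e : (fun x : Fin n → Bool => (1 + α * sg (x i)) * (1 + β * sg (x j)))
      = fun x => 1 + (α * chi {i} x + (β * chi {j} x + (α * β) * chi {i, j} x)) := by
    funext x
    rw [chi_singleton, chi_singleton, chi_pair hij]
    ring
  have hpair : ({i, j} : Finset (Fin n)) ≠ ∅ := Finset.insert_ne_empty _ _
  rw [e, avg_add, avg_add, avg_add, avg_const_mul, avg_const_mul, avg_const_mul,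
    avg_chi (Finset.singleton_ne_empty i), avg_chi (Finset.singleton_ne_empty j), avg_chi hpair]
  unfold avg
  simp

/-- The two-point bound on the degree at most two part. -/
lemma B_bound {n : ℕ} (f : (Fin n → Bool) → Bool) (hp : pOne f = 1 / 2) {i j : Fin n}
    (hij : i ≠ j) (u v : Bool) :
    |2 * (sg u * Fhat f {i} + sg v * Fhat f {j} + sg u * sg v * Fhat f {i, j})| ≤ 1 := by
  have h1 := avg_FW f hij (sg u) (sg v)
  have h2 := avg_W (n := n) hij (sg u) (sg v)
  have hW : ∀ x : Fin n → Bool, 0 ≤ (1 + sg u * sg (x i)) * (1 + sg v * sg (x j)) := by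
    intro x
    apply mul_nonneg
    · cases u <;> cases (x i) <;> simp [sg]
    · cases v <;> cases (x j) <;> simp [sg]
  have h3 : 0 ≤ avg (fun x => ind f true x * ((1 + sg u * sg (x i)) * (1 + sg v * sg (x j)))) :=
    avg_nonneg fun x => mul_nonneg (ind_nonneg f true x) (hW x)
  have h4 : avg (fun x => ind f true x * ((1 + sg u * sg (x i)) * (1 + sg v * sg (x j))))
      ≤ avg (fun x : Fin n → Bool => (1 + sg u * sg (x i)) * (1 + sg v * sg (x j))) := by
    unfold avg
    refine div_le_div_of_nonneg_right (sum_le_sum fun x _ => ?_) (by positivity)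
    have h5 : ind f true x ≤ 1 := by unfold ind; split_ifs <;> norm_num
    exact mul_le_of_le_one_left (hW x) h5
  rw [h2, h1, hp] at h4
  rw [h1, hp] at h3
  rw [abs_le]
  constructor <;> nlinarith

/-- The function whose square controls the pair information. -/
noncomputable def Gval {n : ℕ} (f : (Fin n → Bool) → Bool) (i j : Fin n) (ρ : ℝ)
    (w : Bool × Bool) : ℝ :=
  2 * (sg w.1 * Fhat f {i} + sg w.2 * Fhat f {j} + ρ * (sg w.1 * sg w.2) * Fhat f {i, j})

lemma Gval_bound {n : ℕ} (f : (Fin n → Bool) → Bool) (hp : pOne f = 1 / 2) {i j : Fin n}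
    (hij : i ≠ j) {ρ : ℝ} (h0 : 0 ≤ ρ) (h1 : ρ ≤ 1) (w : Bool × Bool) :
    |Gval f i j ρ w| ≤ 1 := by
  have hB := B_bound f hp hij w.1 w.2
  have hB' := B_bound f hp hij (!w.1) (!w.2)
  rw [sg_not, sg_not] at hB'
  unfold Gval
  set s := sg w.1
  set t := sg w.2
  set a := Fhat f {i}
  set b := Fhat f {j}
  set c := Fhat f {i, j}
  rw [abs_le] at hB hB' ⊢
  obtain ⟨h3, h4⟩ := hB
  obtain ⟨h5, h6⟩ := hB'
  have key : 2 * (s * a + t * b + ρ * (s * t) * c)
      = ρ * (2 * (s * a + t * b + s * t * c))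
        + (1 - ρ) * ((2 * (s * a + t * b + s * t * c)
          - 2 * (-s * a + -t * b + -s * -t * c)) / 2) := by ring
  rw [key]
  have hL1 : -1 ≤ (2 * (s * a + t * b + s * t * c) - 2 * (-s * a + -t * b + -s * -t * c)) / 2 := by
    linarith
  have hL2 : (2 * (s * a + t * b + s * t * c) - 2 * (-s * a + -t * b + -s * -t * c)) / 2 ≤ 1 := by
    linarith
  have hr : 0 ≤ 1 - ρ := by linarith
  constructor
  · nlinarith [mul_le_mul_of_nonneg_left h3 h0, mul_le_mul_of_nonneg_left hL1 hr]
  · nlinarith [mul_le_mul_of_nonneg_left h4 h0, mul_le_mul_of_nonneg_left hL2 hr]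

lemma jointPair_true {n : ℕ} (f : (Fin n → Bool) → Bool) (hp : pOne f = 1 / 2) (ε : ℝ)
    {i j : Fin n} (hij : i ≠ j) (w : Bool × Bool) :
    jointPair f ε i j true w = (1 + (1 - 2 * ε) * Gval f i j (1 - 2 * ε) w) / 8 := by
  rw [jointPair_eq]
  have e : (fun x => ind f true x * (bsc ε (x i) w.1 * bsc ε (x j) w.2))
      = fun x => (1 / 4 : ℝ) * (ind f true x *
          ((1 + ((1 - 2 * ε) * sg w.1) * sg (x i)) * (1 + ((1 - 2 * ε) * sg w.2) * sg (x j)))) := by
    funext x
    rw [bsc_eq, bsc_eq]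
    ring
  rw [e, avg_const_mul, avg_FW f hij, hp]
  unfold Gval
  ring

lemma avg_bsc_pair {n : ℕ} (ε : ℝ) {i j : Fin n} (hij : i ≠ j) (w : Bool × Bool) :
    avg (fun x : Fin n → Bool => bsc ε (x i) w.1 * bsc ε (x j) w.2) = 1 / 4 := by
  have e : (fun x : Fin n → Bool => bsc ε (x i) w.1 * bsc ε (x j) w.2)
      = fun x => (1 / 4 : ℝ) *
          ((1 + ((1 - 2 * ε) * sg w.1) * sg (x i)) * (1 + ((1 - 2 * ε) * sg w.2) * sg (x j))) := by
    funext x
    rw [bsc_eq, bsc_eq]
    ring
  rw [e, avg_const_mul, avg_W hij]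
  norm_num

lemma jointPair_false {n : ℕ} (f : (Fin n → Bool) → Bool) (hp : pOne f = 1 / 2) (ε : ℝ)
    {i j : Fin n} (hij : i ≠ j) (w : Bool × Bool) :
    jointPair f ε i j false w = (1 - (1 - 2 * ε) * Gval f i j (1 - 2 * ε) w) / 8 := by
  have h1 : jointPair f ε i j false w
      = avg (fun x : Fin n → Bool => bsc ε (x i) w.1 * bsc ε (x j) w.2)
        - jointPair f ε i j true w := by
    rw [jointPair_eq, jointPair_eq]
    unfold avg
    rw [← sub_div, ← sum_sub_distrib]
    congr 1
    refine sum_congr rfl fun x _ => ?_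
    show ind f false x * _ = _ - ind f true x * _
    rw [ind_false_eq]
    ring
  rw [h1, avg_bsc_pair ε hij, jointPair_true f hp ε hij]
  ring

lemma sum_Gval_zero {n : ℕ} (f : (Fin n → Bool) → Bool) (i j : Fin n) (ρ : ℝ) :
    ∑ w, Gval f i j ρ w = 0 := by
  rw [Fintype.sum_prod_type, Fintype.sum_bool, Fintype.sum_bool, Fintype.sum_bool]
  unfold Gval
  simp only [sg]
  simp
  ring

lemma sum_Gval_sq {n : ℕ} (f : (Fin n → Bool) → Bool) (i j : Fin n) (ρ : ℝ) :
    ∑ w, (Gval f i j ρ w) ^ 2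
      = 16 * ((Fhat f {i}) ^ 2 + (Fhat f {j}) ^ 2 + ρ ^ 2 * (Fhat f {i, j}) ^ 2) := by
  rw [Fintype.sum_prod_type, Fintype.sum_bool, Fintype.sum_bool, Fintype.sum_bool]
  unfold Gval
  simp only [sg]
  simp
  ring

/-- Closed form of the pair information for balanced functions. -/
lemma mi_pair_eq {n : ℕ} (f : (Fin n → Bool) → Bool) (hp : pOne f = 1 / 2) (ε : ℝ)
    {i j : Fin n} (hij : i ≠ j) :
    mutualInfo (jointPair f ε i j) * Real.log 2
      = ∑ w, phi ((1 - 2 * ε) * Gval f i j (1 - 2 * ε) w) / 8 := by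
  have hlog2 : Real.log 2 ≠ 0 := (Real.log_pos (by norm_num)).ne'
  set ρ := 1 - 2 * ε with hρ
  have jt : ∀ w, jointPair f ε i j true w = (1 + ρ * Gval f i j ρ w) / 8 := fun w =>
    jointPair_true f hp ε hij w
  have jf : ∀ w, jointPair f ε i j false w = (1 - ρ * Gval f i j ρ w) / 8 := fun w =>
    jointPair_false f hp ε hij w
  have h0 := sum_Gval_zero f i j ρ
  have mt : ∑ w, jointPair f ε i j true w = 1 / 2 := by
    simp_rw [jt]
    rw [← sum_div, sum_add_distrib, ← mul_sum, h0]
    simp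
    norm_num
  have mf : ∑ w, jointPair f ε i j false w = 1 / 2 := by
    simp_rw [jf]
    rw [← sum_div, sum_sub_distrib, ← mul_sum, h0]
    simp
    norm_num
  have mw : ∀ w, ∑ b, jointPair f ε i j b w = 1 / 4 := by
    intro w
    rw [Fintype.sum_bool, jt, jf]
    ring
  unfold mutualInfo Real.logb
  rw [Fintype.sum_bool]
  simp only [mt, mf, mw]
  simp only [jt, jf]
  rw [← sum_add_distrib, sum_mul]
  refine sum_congr rfl fun w _ => ?_
  generalize ρ * Gval f i j ρ w = g
  have e1 : (1 + g) / 8 / (1 / 2 * (1 / 4)) = 1 + g := by ring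
  have e2 : (1 - g) / 8 / (1 / 2 * (1 / 4)) = 1 - g := by ring
  rw [e1, e2]
  unfold phi
  field_simp

/-- Each pair: information bounded by Fourier weight. -/
lemma mi_pair_le {n : ℕ} (f : (Fin n → Bool) → Bool) (hp : pOne f = 1 / 2) {ε : ℝ}
    (h0 : 0 ≤ ε) (h1 : ε ≤ 1 / 2) {i j : Fin n} (hij : i ≠ j) :
    mutualInfo (jointPair f ε i j) * Real.log 2
      ≤ 2 * ((Fhat f {i}) ^ 2 + (Fhat f {j}) ^ 2 + (Fhat f {i, j}) ^ 2) * phi (1 - 2 * ε) := by
  set ρ := 1 - 2 * ε with hρ
  have hρ0 : 0 ≤ ρ := by rw [hρ]; linarith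
  have hρ1 : ρ ≤ 1 := by rw [hρ]; linarith
  have hρa : |ρ| ≤ 1 := by rw [abs_of_nonneg hρ0]; exact hρ1
  have hφ : 0 ≤ phi ρ := phi_nonneg hρa
  rw [mi_pair_eq f hp ε hij]
  have step : ∀ w, phi (ρ * Gval f i j ρ w) / 8 ≤ (Gval f i j ρ w) ^ 2 * phi ρ / 8 := by
    intro w
    exact div_le_div_of_nonneg_right
      (phi_mul_le (Gval_bound f hp hij hρ0 hρ1 w) hρ0 hρ1) (by norm_num)
  refine (sum_le_sum fun w _ => step w).trans ?_
  rw [← sum_div, ← sum_mul, sum_Gval_sq]
  have : ρ ^ 2 * (Fhat f {i, j}) ^ 2 ≤ (Fhat f {i, j}) ^ 2 := by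
    have h2 : ρ ^ 2 ≤ 1 := by nlinarith
    exact mul_le_of_le_one_left (sq_nonneg _) h2
  have h3 : (Fhat f {i}) ^ 2 + (Fhat f {j}) ^ 2 + ρ ^ 2 * (Fhat f {i, j}) ^ 2
      ≤ (Fhat f {i}) ^ 2 + (Fhat f {j}) ^ 2 + (Fhat f {i, j}) ^ 2 := by linarith
  have h4 := mul_le_mul_of_nonneg_right h3 hφ
  nlinarith

/-- The matching-block inequality for balanced functions. -/
theorem pair_sum_le {n : ℕ} (f : (Fin n → Bool) → Bool) (hp : pOne f = 1 / 2) {ε : ℝ}
    (h0 : 0 ≤ ε) (h1 : ε ≤ 1 / 2) {m : ℕ} (a b : Fin m → Fin n)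
    (hab : Function.Injective (Sum.elim a b)) :
    ∑ k, mutualInfo (jointPair f ε (a k) (b k)) ≤ 1 - h2 ε := by
  have hlog2 : 0 < Real.log 2 := Real.log_pos (by norm_num)
  have ha : Function.Injective a := fun k l h => by
    have := @hab (Sum.inl k) (Sum.inl l) (by simpa using h)
    simpa using this
  have hb : Function.Injective b := fun k l h => by
    have := @hab (Sum.inr k) (Sum.inr l) (by simpa using h)
    simpa using this
  have hne : ∀ k l, a k ≠ b l := fun k l h => by
    have := @hab (Sum.inl k) (Sum.inr l) (by simpa using h)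
    simp at this
  rw [one_sub_h2 h0 h1]
  set ρ := 1 - 2 * ε with hρ
  have hρ0 : 0 ≤ ρ := by rw [hρ]; linarith
  have hρ1 : ρ ≤ 1 := by rw [hρ]; linarith
  have hρa : |ρ| ≤ 1 := by rw [abs_of_nonneg hρ0]; exact hρ1
  have hφ : 0 ≤ phi ρ := phi_nonneg hρa
  -- the family of characters
  let S : Fin m ⊕ (Fin m ⊕ Fin m) → Finset (Fin n) :=
    Sum.elim (fun k => {a k}) (Sum.elim (fun k => {b k}) (fun k => {a k, b k}))
  have hS : Function.Injective S := by
    have card1 : ∀ k, ({a k, b k} : Finset (Fin n)).card = 2 := fun k =>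
      Finset.card_pair (hne k k)
    rintro (k | k | k) (l | l | l) h
    · have : a k = a l := Finset.singleton_injective h
      rw [ha this]
    · exact absurd (Finset.singleton_injective h) (hne k l)
    · exfalso
      have := congrArg Finset.card h
      simp only [S, Sum.elim_inl, Sum.elim_inr, Finset.card_singleton] at this
      rw [card1] at this
      omega
    · exact absurd (Finset.singleton_injective h).symm (hne l k)
    · have : b k = b l := Finset.singleton_injective h
      rw [hb this]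
    · exfalso
      have := congrArg Finset.card h
      simp only [S, Sum.elim_inl, Sum.elim_inr, Finset.card_singleton] at this
      rw [card1] at this
      omega
    · exfalso
      have := congrArg Finset.card h
      simp only [S, Sum.elim_inl, Sum.elim_inr, Finset.card_singleton] at this
      rw [card1] at this
      omega
    · exfalso
      have := congrArg Finset.card h
      simp only [S, Sum.elim_inl, Sum.elim_inr, Finset.card_singleton] at this
      rw [card1] at this
      omega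
    · have h2 : a k ∈ ({a l, b l} : Finset (Fin n)) := by
        have h7 : ({a k, b k} : Finset (Fin n)) = {a l, b l} := h
        rw [← h7]
        exact Finset.mem_insert_self _ _
      rcases Finset.mem_insert.mp h2 with h3 | h3
      · rw [ha h3]
      · exact absurd (Finset.mem_singleton.mp h3) (hne k l)
  have hSne : ∀ t, S t ≠ ∅ := by
    rintro (k | k | k)
    · exact Finset.singleton_ne_empty _
    · exact Finset.singleton_ne_empty _
    · exact Finset.insert_ne_empty _ _
  have hbes := bessel f S hS hSne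
  rw [hp] at hbes
  simp only [Fintype.sum_sum_type, S, Sum.elim_inl, Sum.elim_inr] at hbes
  have hsum : (∑ k, mutualInfo (jointPair f ε (a k) (b k))) * Real.log 2
      ≤ 2 * (∑ k, ((Fhat f {a k}) ^ 2 + (Fhat f {b k}) ^ 2 + (Fhat f {a k, b k}) ^ 2)) * phi ρ := by
    rw [sum_mul, mul_sum, sum_mul]
    exact sum_le_sum fun k _ => mi_pair_le f hp h0 h1 (hne k k)
  rw [sum_add_distrib, sum_add_distrib] at hsum
  rw [le_div_iff₀ (by positivity)]
  have h5 : (∑ k, (Fhat f {a k}) ^ 2) + (∑ k, (Fhat f {b k}) ^ 2) + ∑ k, (Fhat f {a k, b k}) ^ 2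
      ≤ 1 / 4 := by
    linarith
  have h6 := mul_le_mul_of_nonneg_right h5 hφ
  nlinarith

end Vale.Agent.Lib.P322
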